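import Vale.Agent.P011UGA.IF

/-!
The space of the states: moves, and the action of the totally positive elements.
-/

set_option autoImplicit false
set_option linter.all false

namespace Vale.Agent.P011UGG

open Vale.Agent.P183CH Vale.Agent.P011UGA

/-- The logarithm of a sign. -/
def lgm : ℤˣ →* Multiplicative (ZMod 2) where
  toFun u := Multiplicative.ofAdd (if u = 1 then 0 else 1)
  map_one' := by decide
  map_mul' u w := by
    rcases Int.units_eq_one_or u with rfl | rfl <;> rcases Int.units_eq_one_or w with rfl | rfl <;>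
      decide

/-- The logarithm of a sign. -/
def lg (u : ℤˣ) : ZMod 2 := Multiplicative.toAdd (lgm u)

theorem lg_one : lg 1 = 0 := by decide

theorem lg_neg : lg (-1) = 1 := by decide

theorem lg_mul (u w : ℤˣ) : lg (u * w) = lg u + lg w := by
  rw [lg, map_mul, toAdd_mul]; rfl

theorem lg_zpow (u : ℤˣ) (n : ℤ) : lg (u ^ n) = (n : ZMod 2) * lg u := by
  rw [lg, map_zpow, toAdd_zpow, zsmul_eq_mul]; rfl

theorem lg_prod {ι : Type} (s : Finset ι) (f : ι → ℤˣ) :
    lg (∏ i ∈ s, f i) = ∑ i ∈ s, lg (f i) := by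
  rw [lg, map_prod, toAdd_prod]; rfl

theorem lg_inj {u w : ℤˣ} (h : lg u = lg w) : u = w := by
  revert h
  rcases Int.units_eq_one_or u with rfl | rfl <;> rcases Int.units_eq_one_or w with rfl | rfl <;>
    decide

/-- The data. -/
structure Dt (R : RS) (X O V : Type) [DecidableEq O] (A : O → Type) [∀ c, CommGroup (A c)] where
  o : Fin R.r → O
  J : V → Set (Fin R.r)
  sg : V → Fin R.r → (∀ c, A c) →* ℤˣ
  e0 : V → Fin R.r → ℤˣ
  p : X → ∀ c, A c
  adj : O → O → X → X → Prop
  h1 : ∀ v j c a, c ≠ o j → sg v j (Pi.mulSingle c a) = 1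
  el : ∀ (_ : V) (j : Fin R.r), A (o j)
  el1 : ∀ v, ∀ j ∈ J v, sg v j (Pi.mulSingle (o j) (el v j)) = -1
  el2 : ∀ v, ∀ j ∈ J v, ∀ v', ∀ j' ∈ J v', (v', j') ≠ (v, j) →
    sg v' j' (Pi.mulSingle (o j) (el v j)) = 1
  eqv : ∀ c c', Equivalence (adj c c')
  sym : ∀ c c' x y, adj c c' x y → adj c' c x y
  sub : ∀ c c' x y, adj c c x y → adj c c' x y
  nec : ∀ c x y, adj c c x y → ∃ a, p y = p x * Pi.mulSingle c a ∧ ∀ v, ∀ j ∈ J v, o j = c →
    sgd J sg e0 (p x) v j = -1 → sg v j (Pi.mulSingle c a) = 1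
  suf : ∀ c x a, (∀ v, ∀ j ∈ J v, o j = c → sgd J sg e0 (p x) v j = -1 →
    sg v j (Pi.mulSingle c a) = 1) → ∃ y, adj c c x y ∧ p y = p x * Pi.mulSingle c a
  inj : ∀ c c' x y, adj c c' x y → p x = p y → x = y

namespace Dt

variable {R : RS} {X O V : Type} [DecidableEq O] {A : O → Type} [∀ c, CommGroup (A c)]
  (D : Dt R X O V A)

/-- A move. -/
def St (c : O) (a : A c) (x y : X) : Prop := D.adj c c x y ∧ D.p y = D.p x * Pi.mulSingle c a

variable {D}

theorem St.uniq {c : O} {a : A c} {x y y' : X} (h : D.St c a x y) (h' : D.St c a x y') :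
    y = y' :=
  D.inj c c y y' ((D.eqv c c).trans ((D.eqv c c).symm h.1) h'.1) (h.2.trans h'.2.symm)

theorem St.trans {c : O} {a b : A c} {x y z : X} (h : D.St c b x y) (h' : D.St c a y z) :
    D.St c (a * b) x z :=
  ⟨(D.eqv c c).trans h.1 h'.1, by rw [h'.2, h.2, Pi.mulSingle_mul, mul_assoc, mul_comm (Pi.mulSingle c b)]⟩

theorem St.sq {c c' : O} {a : A c} {a' : A c'} {x y z y' z' : X} (h1 : D.St c a x y)
    (h2 : D.St c' a' y z) (h3 : D.St c' a' x y') (h4 : D.St c a y' z') : z = z' := by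
  have e := D.eqv c c'
  refine D.inj c c' z z' (e.trans (e.symm (e.trans (D.sub _ _ _ _ h1.1)
    (D.sym _ _ _ _ (D.sub _ _ _ _ h2.1)))) (e.trans (D.sym _ _ _ _ (D.sub _ _ _ _ h3.1))
      (D.sub _ _ _ _ h4.1))) ?_
  rw [h2.2, h1.2, h4.2, h3.2, mul_right_comm]

variable (D)

open Classical in
/-- The move as a function. -/
noncomputable def mv (c : O) (a : A c) (x : X) : X :=
  if h : ∃ y, D.St c a x y then h.choose else x

variable {D}

theorem mv_st {c : O} {a : A c} {x : X} (h : ∃ y, D.St c a x y) : D.St c a x (D.mv c a x) := by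
  rw [mv, dif_pos h]
  exact h.choose_spec

theorem St.mv_eq {c : O} {a : A c} {x y : X} (h : D.St c a x y) : D.mv c a x = y :=
  (mv_st ⟨y, h⟩).uniq h

variable (D)

/-- The totally positive elements. -/
def KK : Subgroup (∀ c, A c) where
  carrier := {t | ∀ v, ∀ j ∈ D.J v, D.sg v j t = 1}
  mul_mem' := fun {a b} ha hb v j hj => by rw [map_mul, ha v j hj, hb v j hj, mul_one]
  one_mem' := fun v j _ => map_one _
  inv_mem' := fun {a} ha v j hj => by rw [map_inv, ha v j hj, inv_one]

/-- The totally positive elements of one colour. -/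
def Kc (c : O) : Subgroup (A c) := D.KK.comap (MonoidHom.mulSingle A c)

theorem k_st (c : O) (a : D.Kc c) (x : X) : D.St c a x (D.mv c a x) :=
  mv_st (D.suf c x a fun v j hj _ _ => a.2 v j hj)

/-- The action of the totally positive elements of one colour. -/
noncomputable def mu (c : O) : D.Kc c →* Function.End X where
  toFun a := D.mv c a
  map_one' := funext fun x => St.mv_eq (y := x) ⟨(D.eqv c c).refl x, by simp⟩
  map_mul' a b := funext fun x => St.mv_eq ((D.k_st c b x).trans (D.k_st c a _))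

theorem mu_comm : Pairwise fun c c' => ∀ (a : D.Kc c) (a' : D.Kc c'),
    Commute (D.mu c a) (D.mu c' a') := fun c c' _ a a' => funext fun x =>
  St.sq (D.k_st c' a' x) (D.k_st c a _) (D.k_st c a x) (D.k_st c' a' _)

variable [Fintype O]

/-- The action of the totally positive elements. -/
noncomputable def act : (∀ c, D.Kc c) →* Function.End X :=
  MonoidHom.noncommPiCoprod D.mu D.mu_comm

theorem act_single (c : O) (a : D.Kc c) (x : X) : D.act (Pi.mulSingle c a) x = D.mv c a x := by
  rw [act, MonoidHom.noncommPiCoprod_mulSingle]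
  rfl

theorem act_mul (k k' : ∀ c, D.Kc c) (x : X) : D.act (k * k') x = D.act k (D.act k' x) := by
  rw [map_mul]
  rfl

theorem act_one (x : X) : D.act 1 x = x := by
  rw [map_one]
  rfl

theorem k_ind (P : (∀ c, D.Kc c) → Prop) (k : ∀ c, D.Kc c) (h1 : P 1)
    (hm : ∀ a b, P a → P b → P (a * b)) (hs : ∀ c, P (Pi.mulSingle c (k c))) : P k := by
  rw [← Finset.univ_prod_mulSingle k]
  exact Finset.prod_induction _ P hm h1 fun c _ => hs c

theorem p_act (k : ∀ c, D.Kc c) (x : X) : D.p (D.act k x) = D.p x * fun c => (k c : A c) := by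
  revert x
  refine D.k_ind (fun k => ∀ x, D.p (D.act k x) = D.p x * fun c => (k c : A c)) k ?_ ?_ ?_
  · intro x
    rw [act_one]
    exact (mul_one _).symm
  · intro a b ha hb x
    rw [act_mul, ha, hb, mul_assoc, mul_comm (fun c => (b c : A c))]
    rfl
  · intro c x
    rw [act_single, (D.k_st c (k c) x).2]
    congr 1
    funext d
    by_cases h : d = c
    · subst h
      simp
    · simp [Pi.mulSingle_eq_of_ne h]

theorem sg_act (k : ∀ c, D.Kc c) (x : X) (v : V) (j : Fin R.r) (hj : j ∈ D.J v) :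
    D.sg v j (D.p (D.act k x)) = D.sg v j (D.p x) := by
  revert x
  refine D.k_ind (fun k => ∀ x, D.sg v j (D.p (D.act k x)) = D.sg v j (D.p x)) k ?_ ?_ ?_
  · intro x
    rw [act_one]
  · intro a b ha hb x
    rw [act_mul, ha, hb]
  · intro c x
    rw [act_single, (D.k_st c (k c) x).2, map_mul]
    exact mul_eq_left.mpr ((k c).2 v j hj)

theorem adj_act (c c' : O) (k : ∀ c, D.Kc c) (hk : ∀ d, d ≠ c → d ≠ c' → k d = 1) (x : X) :
    D.adj c c' x (D.act k x) := by
  revert x
  refine D.k_ind (fun k => ∀ x, D.adj c c' x (D.act k x)) k ?_ ?_ ?_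
  · intro x
    rw [act_one]
    exact (D.eqv c c').refl x
  · intro a b ha hb x
    rw [act_mul]
    exact (D.eqv c c').trans (hb x) (ha _)
  · intro d x
    by_cases h : d = c
    · subst h
      rw [act_single]
      exact D.sub _ _ _ _ (D.k_st d (k d) x).1
    by_cases h' : d = c'
    · subst h'
      rw [act_single]
      exact D.sym _ _ _ _ (D.sub _ _ _ _ (D.k_st d (k d) x).1)
    rw [hk d h h', Pi.mulSingle_one, act_one]
    exact (D.eqv c c').refl x

/-- The components of a totally positive element are totally positive. -/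
theorem mem_Kc {t : ∀ c, A c} (ht : t ∈ D.KK) (c : O) : t c ∈ D.Kc c := by
  intro v j hj
  change D.sg v j (Pi.mulSingle c (t c)) = 1
  by_cases h : c = D.o j
  · subst h
    have h1 := ht v j hj
    rw [← Finset.univ_prod_mulSingle t, map_prod,
      Finset.prod_eq_single (D.o j) (fun d _ hd => D.h1 v j d _ hd) (by simp)] at h1
    exact h1
  · exact D.h1 v j c _ h

/-- The orbits. -/
def rel : Setoid X where
  r x y := ∃ k, D.act k x = y
  iseqv := ⟨fun x => ⟨1, D.act_one x⟩, fun {x y} ⟨k, h⟩ => ⟨k⁻¹, by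
    rw [← h, ← act_mul, inv_mul_cancel, act_one]⟩, fun {x y z} ⟨k, h⟩ ⟨k', h'⟩ => ⟨k' * k, by
    rw [act_mul, h, h']⟩⟩

theorem eq_of_rel {x y : X} (h : D.rel x y) (hp : D.p x = D.p y) : x = y := by
  obtain ⟨k, rfl⟩ := h
  rw [p_act, left_eq_mul] at hp
  have : k = 1 := funext fun c => Subtype.ext (congrFun hp c)
  rw [this, act_one]

/-- Two elements of a residue with the same signs are in the same orbit. -/
theorem rel_of_adj {c c' : O} {x y : X} (h : D.adj c c' x y)
    (hs : ∀ d, d ≠ c → d ≠ c' → D.p y d = D.p x d)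
    (hg : ∀ v, ∀ j ∈ D.J v, D.sg v j (D.p y) = D.sg v j (D.p x)) : D.rel x y := by
  have ht : D.p y / D.p x ∈ D.KK := fun v j hj => by rw [map_div, hg v j hj, div_self']
  refine ⟨fun d => ⟨(D.p y / D.p x) d, D.mem_Kc ht d⟩, D.inj c c' _ _
    ((D.eqv c c').trans ((D.eqv c c').symm (D.adj_act c c' _ (fun d h1 h2 => ?_) x)) h) ?_⟩
  · apply Subtype.ext
    change D.p y d / D.p x d = 1
    rw [hs d h1 h2, div_self']
  · rw [p_act]
    exact mul_div_cancel _ _

end Dt

end Vale.Agent.P011UGG
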