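import Vale.Agent.P011UGG.Act

/-!
The space of the states is simply connected.
-/

set_option autoImplicit false
set_option linter.all false

namespace Vale.Agent.P011UGG

open Vale.Agent.P183CH Vale.Agent.P011UGA Relation

namespace Dt

variable {R : RS} {X O V : Type} [DecidableEq O] {A : O → Type} [∀ c, CommGroup (A c)]
  (D : Dt R X O V A)

/-- The sign of the constant. -/
noncomputable def sd (x : X) (v : V) (j : Fin R.r) : ℤˣ := sgd D.J D.sg D.e0 (D.p x) v j

theorem sd_congr {x y : X} {v : V} (h : ∀ m ∈ D.J v, D.sg v m (D.p y) = D.sg v m (D.p x))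
    (j : Fin R.r) : D.sd y v j = D.sd x v j := by
  classical
  unfold sd sgd
  congr 1
  refine Finset.prod_congr rfl fun m hm => ?_
  rw [h m (Finset.mem_filter.mp hm).2]

theorem el_st {x : X} {v : V} {j : Fin R.r} (hj : j ∈ D.J v) (h : D.sd x v j = 1) :
    D.St (D.o j) (D.el v j) x (D.mv (D.o j) (D.el v j) x) := by
  refine mv_st (D.suf _ x _ fun v' j' hj' _ h1 => D.el2 v j hj v' j' hj' fun h2 => ?_)
  obtain ⟨rfl, rfl⟩ := Prod.mk.inj h2
  rw [sd, h1] at h
  exact absurd h (by decide)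

open Classical in
/-- The reflections. -/
noncomputable def sx (v : V) (j : Fin R.r) (x : X) : X :=
  if j ∈ D.J v ∧ D.sd x v j = 1 then D.mv (D.o j) (D.el v j) x else x

theorem sx_pos {x : X} {v : V} {j : Fin R.r} (hj : j ∈ D.J v) (h : D.sd x v j = 1) :
    D.St (D.o j) (D.el v j) x (D.sx v j x) := by
  rw [sx, if_pos ⟨hj, h⟩]
  exact D.el_st hj h

theorem sx_neg {x : X} {v : V} {j : Fin R.r} (h : ¬(j ∈ D.J v ∧ D.sd x v j = 1)) :
    D.sx v j x = x := by
  rw [sx, if_neg h]

theorem sx_st (v : V) (j : Fin R.r) (x : X) : ∃ a, D.St (D.o j) a x (D.sx v j x) := by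
  by_cases h : j ∈ D.J v ∧ D.sd x v j = 1
  · exact ⟨_, D.sx_pos h.1 h.2⟩
  · rw [D.sx_neg h]
    exact ⟨1, (D.eqv _ _).refl x, by simp⟩

theorem sg_sx (v : V) (j : Fin R.r) (x : X) {v' : V} {j' : Fin R.r} (hj' : j' ∈ D.J v')
    (hne : (v', j') ≠ (v, j)) : D.sg v' j' (D.p (D.sx v j x)) = D.sg v' j' (D.p x) := by
  by_cases h : j ∈ D.J v ∧ D.sd x v j = 1
  · rw [(D.sx_pos h.1 h.2).2, map_mul, D.el2 v j h.1 v' j' hj' hne, mul_one]
  · rw [D.sx_neg h]

theorem sd_sx (hR : R.Ok) (v : V) (j : Fin R.r) (x : X) :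
    D.sd (D.sx v j x) v j = D.sd x v j := by
  classical
  unfold sd sgd
  congr 1
  refine Finset.prod_congr rfl fun m hm => ?_
  by_cases h : m = j
  · subst h
    rw [hR.diag, zpow_two, zpow_two, Int.units_mul_self, Int.units_mul_self]
  · rw [D.sg_sx v j x (Finset.mem_filter.mp hm).2 fun h2 => h (Prod.mk.inj h2).2]

theorem sx_comm {v v' : V} (hv : v ≠ v') (j j' : Fin R.r) (x : X) :
    D.sx v j (D.sx v' j' x) = D.sx v' j' (D.sx v j x) := by
  have h1 : D.sd (D.sx v' j' x) v j = D.sd x v j :=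
    D.sd_congr (fun m hm => D.sg_sx v' j' x hm fun h => hv (Prod.mk.inj h).1) j
  have h2 : D.sd (D.sx v j x) v' j' = D.sd x v' j' :=
    D.sd_congr (fun m hm => D.sg_sx v j x hm fun h => hv (Prod.mk.inj h).1.symm) j'
  by_cases h : j ∈ D.J v ∧ D.sd x v j = 1
  · by_cases h' : j' ∈ D.J v' ∧ D.sd x v' j' = 1
    · exact St.sq (D.sx_pos h'.1 h'.2) (D.sx_pos h.1 (h1.trans h.2)) (D.sx_pos h.1 h.2)
        (D.sx_pos h'.1 (h2.trans h'.2))
    · rw [D.sx_neg h', D.sx_neg (x := D.sx v j x) (by rwa [h2])]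
  · rw [D.sx_neg h, D.sx_neg (x := D.sx v' j' x) (by rwa [h1])]

variable [Fintype O]

theorem sx_act (v : V) (j : Fin R.r) (k : ∀ c, D.Kc c) (x : X) :
    D.sx v j (D.act k x) = D.act k (D.sx v j x) := by
  revert x
  refine D.k_ind (fun k => ∀ x, D.sx v j (D.act k x) = D.act k (D.sx v j x)) k ?_ ?_ ?_
  · intro x
    rw [act_one, act_one]
  · intro a b ha hb x
    rw [act_mul, act_mul, ha, hb]
  · intro c x
    have h1 : D.sd (D.act (Pi.mulSingle c (k c)) x) v j = D.sd x v j :=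
      D.sd_congr (fun m hm => D.sg_act _ x v m hm) j
    by_cases h : j ∈ D.J v ∧ D.sd x v j = 1
    · have h2 := D.sx_pos h.1 (h1.trans h.2)
      rw [act_single] at h2
      rw [act_single, act_single]
      exact St.sq (D.k_st c (k c) x) h2 (D.sx_pos h.1 h.2) (D.k_st c (k c) _)
    · rw [D.sx_neg h, D.sx_neg (by rwa [h1])]

/-- The reflections on the quotient. -/
noncomputable def sy (v : V) (j : Fin R.r) : Quotient D.rel → Quotient D.rel :=
  Quotient.map (D.sx v j) fun x y ⟨k, h⟩ => ⟨k, by rw [← h, sx_act]⟩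

theorem sy_inv (hR : R.Ok) (v : V) (j : Fin R.r) : Function.Involutive (D.sy v j) := by
  intro y
  induction y using Quotient.inductionOn with
  | h x =>
    refine Quotient.sound (D.rel.symm ?_)
    obtain ⟨a, ha⟩ := D.sx_st v j x
    obtain ⟨b, hb⟩ := D.sx_st v j (D.sx v j x)
    have h1 := ha.trans hb
    refine D.rel_of_adj h1.1 (fun d hd _ => ?_) fun v' j' hj' => ?_
    · rw [h1.2, Pi.mul_apply, Pi.mulSingle_eq_of_ne hd, mul_one]
    · by_cases hne : (v', j') = (v, j)
      · obtain ⟨rfl, rfl⟩ := Prod.mk.inj hne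
        by_cases h : D.sd x v' j' = 1
        · rw [(D.sx_pos hj' ((D.sd_sx hR v' j' x).trans h)).2, (D.sx_pos hj' h).2, map_mul,
            map_mul, mul_assoc, Int.units_mul_self, mul_one]
        · have h2 : D.sx v' j' x = x := D.sx_neg fun h3 => h h3.2
          rw [h2, h2]
      · rw [D.sg_sx v j _ hj' hne, D.sg_sx v j _ hj' hne]

/-- The reflections as permutations. -/
noncomputable def sp (hR : R.Ok) (v : V) (j : Fin R.r) : Equiv.Perm (Quotient D.rel) :=
  (D.sy_inv hR v j).toPerm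

theorem sp_mk (hR : R.Ok) (v : V) (j : Fin R.r) (x : X) :
    D.sp hR v j (Quotient.mk D.rel x) = Quotient.mk D.rel (D.sx v j x) := rfl

open Classical in
/-- The signs. -/
noncomputable def q (v : V) : Quotient D.rel → Fin R.r → ZMod 2 :=
  Quotient.lift (fun x j => if j ∈ D.J v then lg (D.sg v j (D.p x)) else 0) (by
    rintro x y ⟨k, rfl⟩
    funext j
    by_cases h : j ∈ D.J v
    · rw [if_pos h, if_pos h, D.sg_act k x v j h]
    · rw [if_neg h, if_neg h])

open Classical in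
theorem q_mk (v : V) (x : X) (j : Fin R.r) :
    D.q v (Quotient.mk D.rel x) j = if j ∈ D.J v then lg (D.sg v j (D.p x)) else 0 := rfl

theorem e_mk (v : V) (x : X) (j : Fin R.r) :
    1 + lg (D.e0 v j) + ∑ m, (R.A j m : ZMod 2) * D.q v (Quotient.mk D.rel x) m =
      1 + lg (D.sd x v j) := by
  unfold sd sgd
  rw [lg_mul, lg_prod, Finset.sum_filter, add_assoc]
  congr 2
  refine Finset.sum_congr rfl fun m _ => ?_
  rw [q_mk]
  by_cases h : m ∈ D.J v
  · rw [if_pos h, if_pos h, lg_zpow]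
  · rw [if_neg h, if_neg h, mul_zero]

theorem q_sp (hR : R.Ok) {v v' : V} (hv : v ≠ v') (j : Fin R.r) (y : Quotient D.rel) :
    D.q v (D.sp hR v' j y) = D.q v y := by
  induction y using Quotient.inductionOn with
  | h x =>
    funext m
    rw [sp_mk, q_mk, q_mk]
    by_cases h : m ∈ D.J v
    · rw [if_pos h, if_pos h, D.sg_sx v' j x h fun h2 => hv (Prod.mk.inj h2).1]
    · rw [if_neg h, if_neg h]

/-- Words in two reflections. -/
theorem word_two (hR : R.Ok) (v : V) (j m : Fin R.r) (l : List (Fin R.r))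
    (hl : ∀ i ∈ l, i = j ∨ i = m) (x : X) :
    ∃ z, (l.map (D.sp hR v)).prod (Quotient.mk D.rel x) = Quotient.mk D.rel z ∧
      D.adj (D.o j) (D.o m) x z ∧ (∀ d, d ≠ D.o j → d ≠ D.o m → D.p z d = D.p x d) ∧
      ∀ v', v' ≠ v → ∀ j' ∈ D.J v', D.sg v' j' (D.p z) = D.sg v' j' (D.p x) := by
  induction l with
  | nil => exact ⟨x, rfl, (D.eqv _ _).refl x, fun _ _ _ => rfl, fun _ _ _ _ => rfl⟩
  | cons i l ih =>
    obtain ⟨z, h1, h2, h3, h4⟩ := ih fun i hi => hl i (List.mem_cons_of_mem _ hi)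
    obtain ⟨a, ha⟩ := D.sx_st v i z
    refine ⟨D.sx v i z, ?_, (D.eqv _ _).trans h2 ?_, fun d hd hd' => ?_, fun v' hv' j' hj' => ?_⟩
    · rw [List.map_cons, List.prod_cons, Equiv.Perm.mul_apply, h1, sp_mk]
    · rcases hl i List.mem_cons_self with rfl | rfl
      · exact D.sub _ _ _ _ ha.1
      · exact D.sym _ _ _ _ (D.sub _ _ _ _ ha.1)
    · have hne : d ≠ D.o i := by
        rcases hl i List.mem_cons_self with rfl | rfl
        · exact hd
        · exact hd'
      rw [ha.2, Pi.mul_apply, Pi.mulSingle_eq_of_ne hne, mul_one, h3 d hd hd']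
    · rw [D.sg_sx v i z hj' fun h => hv' (Prod.mk.inj h).1, h4 v' hv' j' hj']

/-- One place. -/
theorem one_place (ca : CA) (hR : R.Ok) (v : V) (l : List (Fin R.r)) (hl : ∀ i ∈ l, i ∈ D.J v)
    (y : Quotient D.rel) (h : D.q v ((l.map (D.sp hR v)).prod y) = D.q v y) :
    (l.map (D.sp hR v)).prod y = y := by
  refine ca R hR (D.J v) (Quotient D.rel) (D.sp hR v) (D.q v)
    (fun y j => 1 + lg (D.e0 v j) + ∑ m, (R.A j m : ZMod 2) * D.q v y m)
    (fun j => 1 + lg (D.e0 v j)) ?_ (fun _ _ _ => rfl) ?_ ?_ ?_ l hl y h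
  · intro y j hj
    induction y using Quotient.inductionOn with
    | h x => rw [q_mk, if_neg hj]
  · intro y j hj
    induction y using Quotient.inductionOn with
    | h x =>
      rw [e_mk, sp_mk]
      rcases Int.units_eq_one_or (D.sd x v j) with h1 | h1
      · funext m
        rw [h1, lg_one, add_zero, Pi.add_apply, q_mk, q_mk]
        by_cases hm : m = j
        · subst hm
          rw [if_pos hj, if_pos hj, (D.sx_pos hj h1).2, map_mul, D.el1 v m hj, lg_mul, lg_neg,
            Pi.single_eq_same]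
        · rw [Pi.single_eq_of_ne hm, add_zero]
          by_cases hm' : m ∈ D.J v
          · rw [if_pos hm', if_pos hm', D.sg_sx v j x hm' fun h2 => hm (Prod.mk.inj h2).2]
          · rw [if_neg hm', if_neg hm']
      · rw [D.sx_neg (fun h2 => by rw [h1] at h2; exact absurd h2.2 (by decide)), h1, lg_neg,
          show (1 : ZMod 2) + 1 = 0 by decide, Pi.single_zero, add_zero]
  · intro y j hj
    induction y using Quotient.inductionOn with
    | h x =>
      intro h1
      rw [e_mk] at h1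
      rw [sp_mk, D.sx_neg fun h2 => ?_]
      rw [h2.2, lg_one] at h1
      exact absurd h1 (by decide)
  · intro j hj m hm l hl y
    induction y using Quotient.inductionOn with
    | h x =>
      obtain ⟨z, h1, h2, h3, h4⟩ := D.word_two hR v j m l hl x
      rw [h1]
      intro h5
      refine Quotient.sound (D.rel.symm (D.rel_of_adj h2 h3 fun v' j' hj' => ?_))
      by_cases hv : v' = v
      · subst hv
        have h6 := congrFun h5 j'
        rw [q_mk, q_mk, if_pos hj', if_pos hj'] at h6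
        exact lg_inj h6
      · exact h4 v' hv j' hj'

/-- Connected by reflections at the places of `W`. -/
def Rc (hR : R.Ok) (W : Set V) : Quotient D.rel → Quotient D.rel → Prop :=
  ReflTransGen fun y y' => ∃ v ∈ W, ∃ j ∈ D.J v, y' = D.sp hR v j y

theorem Rc_q (hR : R.Ok) {W : Set V} {v : V} (hv : v ∉ W) {y z : Quotient D.rel}
    (h : D.Rc hR W y z) : D.q v z = D.q v y := by
  induction h with
  | refl => rfl
  | tail _ h2 ih =>
    obtain ⟨v', hv', j, -, rfl⟩ := h2
    rw [D.q_sp hR (fun h : v = v' => hv (h ▸ hv')), ih]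

theorem Rc_one (ca : CA) (hR : R.Ok) (v : V) {y z : Quotient D.rel} (h : D.Rc hR {v} y z)
    (hq : D.q v z = D.q v y) : z = y := by
  obtain ⟨l, hl, rfl⟩ : ∃ l : List (Fin R.r), (∀ i ∈ l, i ∈ D.J v) ∧
      z = (l.map (D.sp hR v)).prod y := by
    clear hq
    induction h with
    | refl => exact ⟨[], by simp, rfl⟩
    | tail _ h2 ih =>
      obtain ⟨l, hl, rfl⟩ := ih
      obtain ⟨v', rfl, j, hj, rfl⟩ := h2
      refine ⟨j :: l, fun i hi => ?_, ?_⟩
      · rcases List.mem_cons.mp hi with rfl | hi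
        · exact hj
        · exact hl i hi
      · rw [List.map_cons, List.prod_cons, Equiv.Perm.mul_apply]
  exact D.one_place ca hR v l hl y hq

theorem Rc_comm (hR : R.Ok) {v v' : V} (hv : v ≠ v') (j' : Fin R.r) {y z : Quotient D.rel}
    (h : D.Rc hR {v} y z) : D.Rc hR {v} (D.sp hR v' j' y) (D.sp hR v' j' z) := by
  induction h with
  | refl => exact ReflTransGen.refl
  | @tail b c _ h2 ih =>
    obtain ⟨w, rfl, j, hj, rfl⟩ := h2
    refine ReflTransGen.tail ih ⟨w, rfl, j, hj, ?_⟩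
    induction b using Quotient.inductionOn with
    | h x => rw [sp_mk, sp_mk, sp_mk, sp_mk, D.sx_comm hv]

theorem Rc_split (hR : R.Ok) (v : V) (W : Set V) {y z : Quotient D.rel}
    (h : D.Rc hR (insert v W) y z) : ∃ u, D.Rc hR W y u ∧ D.Rc hR {v} u z := by
  induction h with
  | refl => exact ⟨y, ReflTransGen.refl, ReflTransGen.refl⟩
  | tail _ h2 ih =>
    obtain ⟨u, h3, h4⟩ := ih
    obtain ⟨w, hw, j, hj, rfl⟩ := h2
    by_cases h5 : v = w
    · subst h5
      exact ⟨u, h3, ReflTransGen.tail h4 ⟨v, rfl, j, hj, rfl⟩⟩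
    · exact ⟨D.sp hR w j u, ReflTransGen.tail h3 ⟨w, hw.resolve_left (Ne.symm h5), j, hj, rfl⟩,
        D.Rc_comm hR h5 j h4⟩

theorem Rc_all (ca : CA) (hR : R.Ok) {W : Set V} (hW : W.Finite) {y z : Quotient D.rel}
    (h : D.Rc hR W y z) (hq : ∀ v, D.q v z = D.q v y) : z = y := by
  induction W, hW using Set.Finite.induction_on generalizing z with
  | empty =>
    rcases h.cases_tail with h | ⟨_, -, v, hv, -⟩
    · exact h
    · exact absurd hv (Set.notMem_empty v)
  | @insert v W hv _ ih =>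
    obtain ⟨u, h1, h2⟩ := D.Rc_split hR v W h
    have h3 : u = y := ih h1 fun w => by
      by_cases hw : w = v
      · subst hw
        exact D.Rc_q hR hv h1
      · rw [← hq w, D.Rc_q hR (W := {v}) hw h2]
    subst h3
    exact D.Rc_one ca hR v h2 (hq v)

/-- A move is a product of reflections. -/
theorem Rc_adj [Finite V] (hR : R.Ok) (c : O) (y : X) (n : ℕ) : ∀ x, D.adj c c x y →
    {w : V × Fin R.r | w.2 ∈ D.J w.1 ∧ D.sg w.1 w.2 (D.p y) ≠ D.sg w.1 w.2 (D.p x)}.ncard = n →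
    D.Rc hR Set.univ (Quotient.mk D.rel x) (Quotient.mk D.rel y) := by
  induction n with
  | zero =>
    intro x h hn
    rw [Set.ncard_eq_zero (Set.toFinite _)] at hn
    obtain ⟨a, ha, -⟩ := D.nec c x y h
    have h1 : Quotient.mk D.rel x = Quotient.mk D.rel y := by
      refine Quotient.sound (D.rel_of_adj h (fun d hd _ => ?_) fun v j hj => ?_)
      · rw [ha, Pi.mul_apply, Pi.mulSingle_eq_of_ne hd, mul_one]
      · by_contra h2
        exact Set.eq_empty_iff_forall_notMem.mp hn (v, j) ⟨hj, h2⟩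
    rw [h1]
    exact ReflTransGen.refl
  | succ n ih =>
    intro x h hn
    obtain ⟨⟨v, j⟩, hj, hne⟩ := Set.nonempty_of_ncard_ne_zero (hn.trans_ne n.succ_ne_zero)
    change j ∈ D.J v at hj
    change D.sg v j (D.p y) ≠ D.sg v j (D.p x) at hne
    obtain ⟨a, ha, ha'⟩ := D.nec c x y h
    have h1 : D.sg v j (Pi.mulSingle c a) ≠ 1 := fun h1 => hne (by rw [ha, map_mul, h1, mul_one])
    have hc : D.o j = c := by
      by_contra h2
      exact h1 (D.h1 v j c a (Ne.symm h2))
    subst hc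
    have h2 : D.sd x v j = 1 :=
      (Int.units_eq_one_or _).resolve_right fun h2 => h1 (ha' v j hj rfl h2)
    have h3 := D.sx_pos hj h2
    refine ReflTransGen.head ⟨v, Set.mem_univ _, j, hj, (D.sp_mk hR v j x).symm⟩
      (ih _ ((D.eqv _ _).trans ((D.eqv _ _).symm h3.1) h) ?_)
    have e : {w : V × Fin R.r | w.2 ∈ D.J w.1 ∧
        D.sg w.1 w.2 (D.p y) ≠ D.sg w.1 w.2 (D.p (D.sx v j x))} =
        {w : V × Fin R.r | w.2 ∈ D.J w.1 ∧ D.sg w.1 w.2 (D.p y) ≠ D.sg w.1 w.2 (D.p x)} \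
          {(v, j)} := by
      ext ⟨v', j'⟩
      simp only [Set.mem_ofPred_eq, Set.mem_sdiff, Set.mem_singleton_iff]
      by_cases h4 : (v', j') = (v, j)
      · obtain ⟨rfl, rfl⟩ := Prod.mk.inj h4
        refine iff_of_false (fun h5 => h5.2 ?_) fun h5 => h5.2 rfl
        rw [h3.2, map_mul, D.el1 v' j' hj, ha, map_mul, (Int.units_eq_one_or _).resolve_left h1]
      · constructor
        · exact fun h5 => ⟨⟨h5.1, by rw [← D.sg_sx v j x h5.1 h4]; exact h5.2⟩, h4⟩
        · exact fun h5 => ⟨h5.1.1, by rw [D.sg_sx v j x h5.1.1 h4]; exact h5.1.2⟩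
    rw [e, Set.ncard_sdiff_singleton_of_mem (by exact ⟨hj, hne⟩), hn]
    rfl

theorem main [Finite V] (ca : CA) (hR : R.Ok) {x y : X}
    (h : ReflTransGen (fun x y => ∃ c, D.adj c c x y) x y) (hp : D.p x = D.p y) : x = y := by
  have h1 : D.Rc hR Set.univ (Quotient.mk D.rel x) (Quotient.mk D.rel y) := by
    clear hp
    induction h with
    | refl => exact ReflTransGen.refl
    | tail _ h2 ih =>
      obtain ⟨c, hc⟩ := h2
      exact ReflTransGen.trans ih (D.Rc_adj hR c _ _ _ hc rfl)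
  have h2 := D.Rc_all ca hR Set.finite_univ h1 fun v => funext fun j => by
    rw [q_mk, q_mk, hp]
  exact D.eq_of_rel (Quotient.exact h2.symm) hp

end Dt

/-- **The space of the states is simply connected.** -/
theorem gal (ca : CA) : GAL := by
  intro R hR X O V _ _ _ A _ o J sg e0 p adj h1 h2 h3 h4 h5 h6 h7 h8 x y h hp
  have h2' : ∀ v j, ∃ a : A (o j), j ∈ J v → sg v j (Pi.mulSingle (o j) a) = -1 ∧
      ∀ v', ∀ j' ∈ J v', (v', j') ≠ (v, j) → sg v' j' (Pi.mulSingle (o j) a) = 1 := by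
    intro v j
    by_cases hj : j ∈ J v
    · obtain ⟨a, ha⟩ := h2 v j hj
      exact ⟨a, fun _ => ha⟩
    · exact ⟨1, fun h => absurd h hj⟩
  choose el hel using h2'
  exact Dt.main ⟨o, J, sg, e0, p, adj, h1, el, fun v j hj => (hel v j hj).1,
    fun v j hj => (hel v j hj).2, h3, h4, h5, h6, h7, h8⟩ ca hR h hp

end Vale.Agent.P011UGG
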